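import Crest.Agent.X277.BD.BrA

/-!
# Row 262, FANO (helper23), part 1: the canonical divisor of `Pⁿ` and of a smooth hypersurface

* `at_kP_of_span` : functions whose differentials generate are coordinates;
* `dl b s`        : the determinant of the vectors `(s j, d (s j))`;
* `lin_proj`      : `K + (n + 1) H ∼ 0` for a model of dimension `n` in `Pⁿ`;
* `lin_hyp`       : `K + (n + 2 - d) H ∼ 0` for a smooth hypersurface of degree `d` in `Pⁿ⁺¹`.
-/

set_option autoImplicit false

noncomputable section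

namespace Crest.Agent.X262.Fano

open Crest.Agent.X277 Crest.Agent.X277.Lef Crest.Agent.X277.AN.G1 Crest.Agent.X277.BD
open Crest.Agent.X277.BD.Br Module MvPolynomial
open scoped KaehlerDifferential

variable {F : Type} [Field F] [Algebra ℂ F] {n : ℕ} {P : PModel ℂ F}

local notation "𝒹" => KaehlerDifferential.D ℂ F

/-! ### homogeneous polynomials and differentials -/

theorem aeval_mul_hom {σ B : Type*} [CommRing B] [Algebra ℂ B] {p : MvPolynomial σ ℂ} {d : ℕ}
    (h : p.IsHomogeneous d) (c : B) (v : σ → B) :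
    aeval (fun j => c * v j) p = c ^ d * aeval v p := by
  rw [aeval_def, aeval_def, eval₂_eq, eval₂_eq, Finset.mul_sum]
  refine Finset.sum_congr rfl fun m hm => ?_
  have h1 : ∑ i ∈ m.support, m i = d := by
    have h2 := h (mem_support_iff.1 hm)
    simpa [Finsupp.weight_apply, Finsupp.sum] using h2
  simp only [mul_pow, Finset.prod_mul_distrib, Finset.prod_pow_eq_pow_sum, h1]
  ring

theorem D_aeval {σ : Type*} [Fintype σ] (v : σ → F) (p : MvPolynomial σ ℂ) :
    𝒹 (aeval v p) = ∑ s, aeval v (pderiv s p) • 𝒹 (v s) := by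
  classical
  induction p using MvPolynomial.induction_on with
  | C a => simp
  | add p q hp hq => simp [hp, hq, add_smul, Finset.sum_add_distrib]
  | mul_X p i hp =>
    simp only [map_mul, aeval_X, Derivation.leibniz, hp, smul_eq_mul, map_add, pderiv_X,
      add_smul, Finset.sum_add_distrib, Finset.smul_sum]
    congr 1
    · rw [Finset.sum_eq_single i]
      · simp
      · intro j _ hj
        simp [Pi.single_eq_of_ne hj.symm]
      · simp
    · exact Finset.sum_congr rfl fun s _ => by rw [smul_smul]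

/-! ### coordinates from generators of the differentials -/

/-- `d f` is a combination of the `d (z l)` with coefficients regular at `x` -/
def Sp (x : Pts P) (z : Fin n → F) (f : F) : Prop :=
  ∃ c : Fin n → F, (∀ l, c l ∈ (lp x).O) ∧ 𝒹 f = ∑ l, c l • 𝒹 (z l)

variable {x : Pts P} {z : Fin n → F} {f g : F}

theorem Sp.self (l : Fin n) : Sp x z (z l) := by
  classical
  refine ⟨Pi.single l 1, fun m => ?_, ?_⟩
  · by_cases h : m = l
    · subst h; simp
    · simp [Pi.single_eq_of_ne h]
  · rw [Finset.sum_eq_single l] <;> simp +contextual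

theorem Sp.of_zero (h : 𝒹 f = 0) : Sp x z f := ⟨0, fun _ => zero_mem _, by simp [h]⟩

theorem Sp.of_sum {ι : Type*} (s : Finset ι) {c u : ι → F} (hc : ∀ j ∈ s, c j ∈ (lp x).O)
    (hu : ∀ j ∈ s, Sp x z (u j)) (h : 𝒹 f = ∑ j ∈ s, c j • 𝒹 (u j)) : Sp x z f := by
  choose! e he h1 using hu
  refine ⟨fun l => ∑ j ∈ s, c j * e j l,
    fun l => sum_mem fun j hj => mul_mem (hc j hj) (he j hj l), ?_⟩
  rw [h, Finset.sum_congr rfl fun j hj => by rw [h1 j hj, Finset.smul_sum], Finset.sum_comm]
  simp only [Finset.sum_smul, smul_smul]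

theorem Sp.of_gen {i : Fin (P.N + 1)} (hx : x ∈ pat P i) (h : ∀ j, Sp x z (P.y j / P.y i))
    (hf : f ∈ (lp x).O) : Sp x z f := by
  have h1 : ∀ a ∈ P.A i, Sp x z a := by
    intro a ha
    obtain ⟨p, rfl⟩ := exists_poly ha
    exact Sp.of_sum Finset.univ (fun j _ => LP.aeval_mem (y_mem hx) _) (fun j _ => h j)
      (D_aeval _ p)
  obtain ⟨a, ha, c, hc, h0, h2⟩ := (mem_lp_iff hx).1 hf
  have hc0 : c ≠ 0 := LP.ne_zero_of_ne h0
  refine Sp.of_sum (Finset.univ : Finset (Fin 2)) (c := ![c⁻¹, -(f * c⁻¹)]) (u := ![a, c])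
    ?_ ?_ ?_
  · intro j _
    fin_cases j
    · exact (lp x).inv_mem h0
    · exact neg_mem (mul_mem hf ((lp x).inv_mem h0))
  · intro j _
    fin_cases j
    · exact h1 a ha
    · exact h1 c hc
  · rw [Fin.sum_univ_two]
    show 𝒹 f = c⁻¹ • 𝒹 a + -(f * c⁻¹) • 𝒹 c
    rw [← h2, Derivation.leibniz, smul_add, smul_smul, smul_smul, inv_mul_cancel₀ hc0, one_smul,
      neg_smul, mul_comm f]
    abel

variable (b : Basis (Fin n) F Ω[F⁄ℂ])

theorem jac_of_sp {w : Fin n → F} (h : ∀ m, Sp x z (w m)) :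
    ∃ e ∈ (lp x).O, jac b w = e * jac b z := by
  choose c hc h1 using h
  refine ⟨(Matrix.of fun l m => c m l).det, LP.det_mem fun l m => hc m l, ?_⟩
  rw [jac_eq_toMatrix, jac_eq_toMatrix, mul_comm, ← Matrix.det_mul]
  congr 1
  ext r m
  simp only [Basis.toMatrix_apply, Matrix.mul_apply, Matrix.of_apply, h1, map_sum, map_smul,
    Finsupp.coe_finsetSum, Finset.sum_apply, Finsupp.smul_apply, smul_eq_mul]
  exact Finset.sum_congr rfl fun l _ => mul_comm _ _

/-- functions whose differentials generate give a generator of the canonical divisor -/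
theorem at_kP_of_span {i : Fin (P.N + 1)} (hx : x ∈ pat P i) (hz : ∀ l, z l ∈ (lp x).O)
    (h : ∀ j, Sp x z (P.y j / P.y i)) : At (kP P b) x (jac b z) := by
  obtain ⟨w, hw⟩ := exists_crd b x
  obtain ⟨e, he, h1⟩ := jac_of_sp b fun m => Sp.of_gen hx h (hw.mem m)
  have h2 := jac_ne b hw
  have h3 : jac b z ≠ 0 := fun h3 => h2 (by rw [h1, h3, mul_zero])
  refine (at_kP b hw).of_ev' (LP.ne_of_inv_mem (hw.jac_div_mem (lp_fin x) b hz)
    (div_ne_zero h3 h2) ?_)
  rwa [inv_div, h1, mul_div_cancel_right₀ _ h3]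

/-! ### the homogeneous Jacobian -/

/-- the vector `(f, d f)` -/
def col (f : F) : Fin (n + 1) → F := Fin.cons f fun r => b.repr (𝒹 f) r

/-- the determinant of the vectors `(s j, d (s j))` -/
def dl (s : Fin (n + 1) → F) : F := (Matrix.of fun r j => col b (s j) r).det

theorem dl_mul {t : F} (ht : t ≠ 0) (u : Fin (n + 1) → F) :
    dl b (fun j => t * u j) = t ^ (n + 1) * dl b u := by
  have h1 : (t • Matrix.of fun r j => col b (u j) r).det = t ^ (n + 1) * dl b u := by
    rw [Matrix.det_smul, Fintype.card_fin, dl]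
  rw [← h1, dl]
  refine Matrix.det_eq_of_forall_row_eq_smul_add_const
    (Fin.cons 0 fun r => b.repr (𝒹 t) r / t) 0 rfl fun r j => ?_
  refine Fin.cases ?_ (fun r => ?_) r
  · simp [col]
  · simp only [col, Matrix.of_apply, Fin.cons_succ, Matrix.smul_apply, Fin.cons_zero,
      Derivation.leibniz, map_add, map_smul, Finsupp.add_apply, Finsupp.smul_apply, smul_eq_mul]
    field_simp

theorem dl_one {u : Fin (n + 1) → F} {i : Fin (n + 1)} (h : u i = 1) :
    dl b u = (-1) ^ (i : ℕ) * jac b fun l => u (i.succAbove l) := by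
  rw [dl, Matrix.det_succ_column _ i, Fin.sum_univ_succ, Finset.sum_eq_zero]
  · simp only [Matrix.of_apply, h, col, Fin.cons_zero, Fin.val_zero, zero_add, mul_one, add_zero]
    rfl
  · intro r _
    simp [h, col]

theorem dl_eq {s : Fin (n + 1) → F} {i : Fin (n + 1)} (h : s i ≠ 0) :
    dl b s = (-1) ^ (i : ℕ) * (jac b (fun l => s (i.succAbove l) / s i) * s i ^ (n + 1)) := by
  have h1 : s = fun j => s i * (s j / s i) := funext fun j => by field_simp
  conv_lhs => rw [h1]
  rw [dl_mul b h, dl_one b (i := i) (div_self h)]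
  ring

/-- Cramer's rule for a relation between `n + 2` vectors -/
theorem dl_cramer {s c : Fin (n + 2) → F} (h0 : ∑ j, c j * s j = 0)
    (h1 : ∑ j, c j • 𝒹 (s j) = 0) (l l' : Fin (n + 2)) :
    (-1) ^ (l' : ℕ) * (c l * dl b fun j => s (l'.succAbove j)) =
      (-1) ^ (l : ℕ) * (c l' * dl b fun j => s (l.succAbove j)) := by
  classical
  by_cases hc : c = 0
  · simp [hc]
  by_cases hl : l = l'
  · rw [hl]
  have key : ∀ ρ : Fin (n + 2) → F, ∑ j, ρ j * c j = 0 →
      ∑ j : Fin (n + 2), (-1) ^ (j : ℕ) * ρ j * dl b (fun m => s (j.succAbove m)) = 0 := by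
    intro ρ hρ
    let M : Matrix (Fin (n + 2)) (Fin (n + 2)) F :=
      Matrix.of (Fin.cons ρ fun r j => col b (s j) r)
    have h2 : M.det = 0 := by
      refine Matrix.exists_mulVec_eq_zero_iff.1 ⟨c, hc, funext fun r => ?_⟩
      refine Fin.cases hρ (fun r => ?_) r
      refine Fin.cases ?_ (fun r => ?_) r
      · show ∑ j, s j * c j = 0
        simpa only [mul_comm] using h0
      · show ∑ j, b.repr (𝒹 (s j)) r * c j = 0
        have h3 := congrArg (fun ω => b.repr ω r) h1
        simp only [map_sum, map_smul, Finsupp.coe_finsetSum, Finset.sum_apply,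
          Finsupp.smul_apply, smul_eq_mul, map_zero, Finsupp.zero_apply] at h3
        simpa only [mul_comm] using h3
    rw [Matrix.det_succ_row_zero] at h2
    exact h2
  have h2 := key (Pi.single l' (c l) - Pi.single l (c l')) (by
    simp only [Pi.sub_apply, sub_mul, Finset.sum_sub_distrib, Pi.single_apply, ite_mul, zero_mul,
      Finset.sum_ite_eq', Finset.mem_univ, if_true]
    ring)
  simp only [Pi.sub_apply, mul_sub, sub_mul, Finset.sum_sub_distrib, Pi.single_apply, mul_ite,
    ite_mul, zero_mul, mul_zero, Finset.sum_ite_eq', Finset.mem_univ, if_true] at h2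
  linear_combination h2

theorem At.neg_one_pow {a : BD ℂ F} (h : At a x g) (m : ℕ) : At a x ((-1) ^ m * g) :=
  fun V hV => by rw [map_mul, map_pow, Valuation.map_neg, map_one, one_pow, one_mul, h V hV]

theorem lin_zero_of_at {a : BD ℂ F} (h : ∀ x : Pts P, At a x f) : Lin a 0 := by
  obtain ⟨x0⟩ : Nonempty (Pts P) := inferInstance
  refine ⟨f, (h x0).ne, ext_at (P := P) fun x => ⟨f, h x, ?_⟩⟩
  rw [zero_add]
  exact at_pr x (h x0).ne

/-! ### projective space -/

/-- the canonical divisor of projective space -/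
theorem lin_proj (hN : P.N = n) : Lin (kP P b + (n + 1) • oP P) 0 := by
  subst hN
  refine lin_zero_of_at (P := P) (f := dl b P.y) fun x => ?_
  obtain ⟨i, hi⟩ := exists_pat x
  rw [dl_eq b (P.y_ne i)]
  refine At.neg_one_pow (At.add ?_ ((at_y hi).nsmul _)) _
  refine at_kP_of_span b hi (fun l => y_mem hi _) fun j => ?_
  refine Fin.succAboveCases i ?_ (fun l => ?_) j
  · exact Sp.of_zero (by rw [div_self (P.y_ne i), Derivation.map_one_eq_zero])
  · exact Sp.self (z := fun l => P.y (i.succAbove l) / P.y i) l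

/-! ### hypersurfaces -/

theorem exists_pderiv_ne {G : MvPolynomial (Fin (P.N + 1)) ℂ} {d : ℕ} (hG : G.IsHomogeneous d)
    (h0 : aeval P.y G = 0)
    (hs : ∀ p : Fin (P.N + 1) → ℂ, p ≠ 0 → eval p G = 0 → ∃ l, eval p (pderiv l G) ≠ 0)
    {i : Fin (P.N + 1)} (hx : x ∈ pat P i) : aeval (fun j => P.y j / P.y i) G = 0 ∧
      ∃ l, l ≠ i ∧ ev (aeval (fun j => P.y j / P.y i) (pderiv l G)) x ≠ 0 := by
  classical
  have h1 : aeval (fun j => P.y j / P.y i) G = 0 := by
    simp only [div_eq_inv_mul]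
    rw [aeval_mul_hom hG, h0, mul_zero]
  refine ⟨h1, ?_⟩
  set p : Fin (P.N + 1) → ℂ := fun j => ev (P.y j / P.y i) x with hp
  have hv : ∀ q : MvPolynomial (Fin (P.N + 1)) ℂ,
      ev (aeval (fun j => P.y j / P.y i) q) x = eval p q := fun q => LP.v_aeval (y_mem hx) q
  have hpi : p i = 1 := by
    simp only [hp, div_self (P.y_ne i)]
    exact (lp x).v_one
  have h2 : eval p G = 0 := by
    rw [← hv, h1]
    exact (lp x).v_zero
  by_contra hcon
  push Not at hcon
  obtain ⟨l, hl⟩ := hs p (fun h => by simp [h] at hpi) h2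
  have h3 : ∀ j, j ≠ i → eval p (pderiv j G) = 0 := fun j hj => by rw [← hv, hcon j hj]
  have h4 := congrArg (eval p) hG.sum_X_mul_pderiv
  rw [map_sum, Finset.sum_eq_single i (fun j _ hj => by rw [map_mul, h3 j hj, mul_zero])
    (by simp), map_mul, eval_X, hpi, one_mul, map_nsmul, h2, smul_zero] at h4
  by_cases h5 : l = i
  · exact hl (h5 ▸ h4)
  · exact hl (h3 l h5)

/-- adjunction for a smooth hypersurface of degree `d` in `Pⁿ⁺¹` -/
theorem lin_hyp (hN : P.N = n + 1) {G : MvPolynomial (Fin (P.N + 1)) ℂ} {d r : ℕ}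
    (hG : G.IsHomogeneous d) (h0 : aeval P.y G = 0)
    (hs : ∀ p : Fin (P.N + 1) → ℂ, p ≠ 0 → eval p G = 0 → ∃ l, eval p (pderiv l G) ≠ 0)
    (hd : 0 < d) (hr : r + d = n + 2) : Lin (kP P b + r • oP P) 0 := by
  classical
  obtain ⟨N, y, hy, fr, sm⟩ := P
  dsimp only at hN
  subst hN
  let P : PModel ℂ F := ⟨n + 1, y, hy, fr, sm⟩
  change aeval y G = 0 at h0
  show Lin (kP P b + r • oP P) 0
  -- local generators
  have key : ∀ x : Pts P, ∃ l : Fin (n + 2), aeval y (pderiv l G) ≠ 0 ∧
      At (kP P b + r • oP P) x (dl b (fun j => y (l.succAbove j)) / aeval y (pderiv l G)) := by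
    intro x
    obtain ⟨i, hi⟩ := exists_pat x
    obtain ⟨h1, l, hl, h2⟩ := exists_pderiv_ne (P := P) hG h0 hs hi
    obtain ⟨i', rfl⟩ := Fin.exists_succAbove_eq hl.symm
    set u : Fin (n + 2) → F := fun j => y j / y (l.succAbove i') with hu
    have h3 : aeval y (pderiv l G) = y (l.succAbove i') ^ (d - 1) * aeval u (pderiv l G) := by
      rw [← aeval_mul_hom hG.pderiv]
      congr 2
      funext j
      rw [hu, mul_div_cancel₀ _ (hy _)]
    have h4 : aeval u (pderiv l G) ≠ 0 := LP.ne_zero_of_ne h2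
    refine ⟨l, by rw [h3]; exact mul_ne_zero (pow_ne_zero _ (hy _)) h4, ?_⟩
    have h5 : At (kP P b) x (jac b fun m => u (l.succAbove (i'.succAbove m))) := by
      have h6 : ∀ j, Sp x (fun m => u (l.succAbove (i'.succAbove m))) (u (l.succAbove j)) := by
        intro j
        refine Fin.succAboveCases i' ?_ (fun m => ?_) j
        · exact Sp.of_zero (by rw [hu]; simp only [div_self (hy _), Derivation.map_one_eq_zero])
        · exact Sp.self (z := fun m => u (l.succAbove (i'.succAbove m))) m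
      refine at_kP_of_span b hi (fun m => y_mem hi _) fun j => ?_
      refine Fin.succAboveCases l ?_ h6 j
      refine Sp.of_sum Finset.univ (u := fun j => u (l.succAbove j))
        (c := fun j => -(aeval u (pderiv (l.succAbove j) G) / aeval u (pderiv l G)))
        (fun j _ => neg_mem (LP.div_mem (LP.aeval_mem (y_mem hi) _) h2)) (fun j _ => h6 j) ?_
      have h7 := D_aeval u G
      rw [h1, map_zero, Fin.sum_univ_succAbove _ l] at h7
      have h8 : 𝒹 (u l) = (aeval u (pderiv l G))⁻¹ • (aeval u (pderiv l G) • 𝒹 (u l)) := by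
        rw [smul_smul, inv_mul_cancel₀ h4, one_smul]
      show 𝒹 (u l) = _
      rw [h8, eq_neg_of_add_eq_zero_left h7.symm, smul_neg, Finset.smul_sum,
        ← Finset.sum_neg_distrib]
      exact Finset.sum_congr rfl fun j _ => by rw [smul_smul, neg_smul, div_eq_inv_mul]
    have h9 := (h5.add ((at_y hi).nsmul r)).mul_unit (f := (aeval u (pderiv l G))⁻¹) (by
      unfold ev
      rw [LP.v_inv h2]
      exact inv_ne_zero h2)
    rw [dl_eq b (i := i') (hy _), h3, mul_div_assoc]
    refine At.neg_one_pow ?_ _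
    convert h9 using 1
    obtain ⟨d, rfl⟩ := Nat.exists_eq_succ_of_ne_zero hd.ne'
    have h10 : n + 1 = r + d := by omega
    have h11 := hy (l.succAbove i')
    show _ = _ * (_ * y (l.succAbove i') ^ r)
    rw [Nat.succ_sub_one, show y (l.succAbove i') ^ (n + 1) = _ from h10 ▸ pow_add _ r d]
    field_simp
    rfl
  obtain ⟨x0⟩ : Nonempty (Pts P) := inferInstance
  obtain ⟨l0, hl0, -⟩ := key x0
  refine lin_zero_of_at (P := P)
    (f := dl b (fun j => y (l0.succAbove j)) / aeval y (pderiv l0 G)) fun x => ?_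
  obtain ⟨l, hl, h1⟩ := key x
  have h2 := dl_cramer b (s := y) (c := fun j => aeval y (pderiv j G)) (by
    have h3 := congrArg (aeval y) hG.sum_X_mul_pderiv
    rw [map_sum, map_nsmul, h0, smul_zero] at h3
    simpa only [map_mul, aeval_X, mul_comm] using h3) (by rw [← D_aeval, h0, map_zero]) l l0
  have h4 : dl b (fun j => y (l0.succAbove j)) / aeval y (pderiv l0 G) = (-1) ^ ((l0 : ℕ) + l) *
      (dl b (fun j => y (l.succAbove j)) / aeval y (pderiv l G)) := by
    have h5 : ((-1 : F) ^ (l0 : ℕ)) * (-1) ^ (l0 : ℕ) = 1 := by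
      rw [← mul_pow]
      simp
    rw [pow_add]
    field_simp
    linear_combination (-1) ^ (l0 : ℕ) * h2 -
      (aeval y (pderiv l G) * dl b fun j => y (l0.succAbove j)) * h5
  rw [h4]
  exact At.neg_one_pow h1 _

end Crest.Agent.X262.Fano
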