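import Crest.Agent.X262.Fano.Rho
import Crest.Agent.X262.Top.Defs

/-!
# Row 262, FANO (helper23), part 3: the statements of TOP

* `fanoPStmt` : projective space is a Fano variety of Picard number one;
* `lin_cubic` : `K + 3 H ∼ 0` on a smooth cubic fourfold; `fanoX_of_rho`.
-/

set_option autoImplicit false

namespace Crest.Agent.X262.Fano

open Crest.Agent.X277 Crest.Agent.X277.Lef Crest.Agent.X277.BD Crest.Agent.X277.BD.Br
open Crest.Agent.X262.Top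
open scoped KaehlerDifferential

theorem fanoPStmt : FanoPStmt := fun _ _ _ b Y =>
  ⟨⟨5, by norm_num, lin_proj (P := Y.P) b rfl⟩, fun _ ha =>
    ⟨1, one_pos, by simpa only [one_smul] using rho_proj (P := Y.P) b rfl ha⟩⟩

theorem lin_cubic {G : MvPolynomial (Fin 6) ℂ} {K : Type} [Field K] [Algebra ℂ K]
    (b : Module.Basis (Fin 4) K Ω[K⁄ℂ]) (X : Hyp 5 G K) (hG : SmCub G) :
    Lin (kP X.P b + 3 • oP X.P) 0 :=
  lin_hyp (P := X.P) b rfl (G := G) hG.1 ((X.ker 3 G hG.1).2 dvd_rfl) hG.2 (by norm_num) rfl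

theorem fanoX_of_rho (h : ∀ (G : MvPolynomial (Fin 6) ℂ) (K : Type) [Field K] [Algebra ℂ K]
    (_ : Module.Basis (Fin 4) K Ω[K⁄ℂ]) (X : Hyp 5 G K), SmCub G → Nonempty (Hyp 4 0 K) →
      ∀ a ∈ On X.P, ∃ m : ℕ, 0 < m ∧ ∃ c : ℤ, Lin (m • a) (c • oP X.P)) : FanoXStmt :=
  fun G K _ _ b X hG hY => ⟨⟨3, by norm_num, lin_cubic b X hG⟩, h G K b X hG hY⟩

end Crest.Agent.X262.Fano
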