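import Crest.Agent.X262.Fano.K
import Crest.Agent.X277.Rou.Frame

/-!
# Row 262, FANO (helper23), part 2: the Picard group of projective space

* `rho_proj` : every Cartier divisor on a model of dimension `n` in `Pⁿ` is linearly equivalent to
  a multiple of the hyperplane.
-/

set_option autoImplicit false

noncomputable section

namespace Crest.Agent.X262.Fano

open Crest.Agent.X277 Crest.Agent.X277.Lef Crest.Agent.X277.AN.G1 Crest.Agent.X277.BD
open Crest.Agent.X277.BD.Br Module MvPolynomial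
open scoped KaehlerDifferential

/-! ### factorial rings -/

theorem exists_red {R ι : Type*} [CommRing R] [IsDomain R] [UniqueFactorizationMonoid R] (j0 : ι)
    (p : ι → R) (h : p j0 ≠ 0) :
    ∃ (g : R) (q : ι → R), (∀ j, p j = g * q j) ∧ ∀ π : R, Prime π → ∃ j, ¬ π ∣ q j := by
  induction hr : p j0 using (wellFounded_dvdNotUnit (α := R)).induction generalizing p with
  | _ r ih =>
    by_cases h1 : ∀ π : R, Prime π → ∃ j, ¬ π ∣ p j
    · exact ⟨1, p, fun j => (one_mul _).symm, h1⟩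
    · push Not at h1
      obtain ⟨π, hπ, h2⟩ := h1
      choose q hq using h2
      have h3 : q j0 ≠ 0 := fun h3 => h (by rw [hq j0, h3, mul_zero])
      obtain ⟨g, q', h4, h5⟩ := ih (q j0) ⟨h3, π, hπ.not_isUnit, by rw [← hr, hq j0, mul_comm]⟩
        q h3 rfl
      exact ⟨π * g, q', fun j => by rw [hq j, h4 j, mul_assoc], h5⟩

theorem exists_prime_ker {R : Type*} [CommRing R] [IsDomain R] [UniqueFactorizationMonoid R]
    (χ : R →+* ℂ) {a : R} (h0 : a ≠ 0) (h : χ a = 0) : ∃ π : R, Prime π ∧ π ∣ a ∧ χ π = 0 := by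
  induction a using UniqueFactorizationMonoid.induction_on_prime with
  | h₁ => exact absurd rfl h0
  | h₂ u hu => exact absurd h (hu.map χ).ne_zero
  | h₃ a π ha hπ ih =>
    rw [map_mul, mul_eq_zero] at h
    rcases h with h | h
    · exact ⟨π, hπ, dvd_mul_right _ _, h⟩
    · obtain ⟨π', h1, h2, h3⟩ := ih ha h
      exact ⟨π', h1, h2.mul_left _, h3⟩

variable {F : Type} [Field F] [Algebra ℂ F] {P : PModel ℂ F}

/-! ### the charts of projective space -/

variable (P) in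
/-- the affine coordinates of the chart `i` -/
def zc (i : Fin (P.N + 1)) (l : Fin P.N) : F := P.y (i.succAbove l) / P.y i

theorem zc_mem (i : Fin (P.N + 1)) (p : MvPolynomial (Fin P.N) ℂ) : aeval (zc P i) p ∈ P.A i := by
  refine (show (aeval (zc P i)).range ≤ P.A i from ?_) ⟨p, rfl⟩
  rw [← Algebra.adjoin_range_eq_range_aeval, Algebra.adjoin_le_iff]
  rintro _ ⟨l, rfl⟩
  exact div_mem_chart P.y i _

theorem range_zc (i : Fin (P.N + 1)) : (aeval (zc P i)).range = P.A i := by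
  refine le_antisymm (by rintro _ ⟨p, rfl⟩; exact zc_mem i p) (Algebra.adjoin_le ?_)
  rintro _ ⟨j, rfl⟩
  refine Fin.succAboveCases i ?_ (fun l => ⟨X l, aeval_X _ l⟩) j
  simp only [div_self (P.y_ne i)]
  exact one_mem _

theorem exists_zc {i : Fin (P.N + 1)} {a : F} (ha : a ∈ P.A i) :
    ∃ p : MvPolynomial (Fin P.N) ℂ, aeval (zc P i) p = a := by
  rw [← range_zc] at ha
  exact ha

theorem ev_zc {i : Fin (P.N + 1)} {x : Pts P} (hx : x ∈ pat P i) (p : MvPolynomial (Fin P.N) ℂ) :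
    ev (aeval (zc P i) p) x = eval (fun l => ev (zc P i l) x) p :=
  LP.v_aeval (fun _ => y_mem hx _) p

variable (b : Basis (Fin P.N) F Ω[F⁄ℂ])

include b

theorem zc_inj (i : Fin (P.N + 1)) : Function.Injective (aeval (R := ℂ) (zc P i)) := by
  obtain ⟨x, hx, -⟩ := exists_ev_ne (P := P) (i := i) (one_mem _) one_ne_zero
  have h1 : jac b (zc P i) ≠ 0 := by
    refine (at_kP_of_span b hx (fun l => y_mem hx _) fun j => ?_).ne
    refine Fin.succAboveCases i ?_ (fun l => Sp.self l) j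
    exact Sp.of_zero (by rw [div_self (P.y_ne i), Derivation.map_one_eq_zero])
  exact Rou.indep_of_dual (d := pdD h1) fun l m => by rw [pdD_apply, pd_self h1]

theorem exists_pt_zc (i : Fin (P.N + 1)) (w : Fin P.N → ℂ) :
    ∃ x ∈ pat P i, ∀ l, ev (zc P i l) x = w l := by
  let e : MvPolynomial (Fin P.N) ℂ ≃ₐ[ℂ] P.A i :=
    (AlgEquiv.ofInjective _ (zc_inj b i)).trans (Subalgebra.equivOfEq _ _ (range_zc i))
  obtain ⟨x, hx, h⟩ := exists_pt i ((aeval w).comp (e.symm : P.A i →ₐ[ℂ] _))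
  refine ⟨x, hx, fun l => ?_⟩
  have h1 := h (e (X l))
  rw [show ((e (X l) : P.A i) : F) = zc P i l from aeval_X _ l] at h1
  simpa using h1

/-- a Cartier divisor is principal on every chart -/
theorem exists_gen_chart {a : BD ℂ F} (ha : a ∈ On P) (i : Fin (P.N + 1)) :
    ∃ g : F, ∀ x ∈ pat P i, At a x g := by
  classical
  suffices h : ∀ a ∈ On P, Free a → ∃ g : F, ∀ x ∈ pat P i, At a x g by
    obtain ⟨c, hc, N, h1, rfl⟩ := exists_sub_On ha
    obtain ⟨g, hg⟩ := h c hc h1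
    exact ⟨_, fun x hx => (hg x hx).sub ((at_y hx).nsmul N)⟩
  intro a ha hf
  obtain ⟨r, s, h0, h1, rfl⟩ := exists_gn ha hf
  choose e he c hc hc0 h2 using fun j => P.frac' i (s j)
  have hq : ∏ j, c j ≠ 0 := Finset.prod_ne_zero_iff.2 fun j _ => hc0 j
  have h3 : ∀ j, s j * ∏ j, c j ∈ P.A i := fun j => by
    rw [← Finset.mul_prod_erase _ c (Finset.mem_univ j), ← mul_assoc, h2 j,
      div_mul_cancel₀ _ (hc0 j)]
    exact mul_mem (he j) (prod_mem fun l _ => hc l)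
  choose p hp using fun j => exists_zc (h3 j)
  have hp0 : ∀ j, p j ≠ 0 := fun j h => mul_ne_zero (h0 j) hq (by rw [← hp, h, map_zero])
  obtain ⟨g, q, h4, h5⟩ := exists_red 0 p (hp0 0)
  have hg : aeval (zc P i) g ≠ 0 := fun h =>
    mul_ne_zero (h0 0) hq (by rw [← hp, h4, map_mul, h, zero_mul])
  have h6 : ∀ j, s j = aeval (zc P i) (q j) * (aeval (zc P i) g / ∏ j, c j) := fun j => by
    rw [← mul_div_assoc, mul_comm, ← map_mul, ← h4, hp, mul_div_cancel_right₀ _ hq]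
  refine ⟨aeval (zc P i) g / ∏ j, c j, fun x hx => ?_⟩
  obtain ⟨j, hj, h7⟩ := h1 x
  refine (at_mxf hj h7).of_ev ?_
  rw [h6 j, mul_div_cancel_right₀ _ (div_ne_zero hg hq), ev_zc hx]
  intro h8
  have hq0 : q j ≠ 0 := fun h => hp0 j (by rw [h4, h, mul_zero])
  obtain ⟨π, hπ, h9, h10⟩ := exists_prime_ker (eval fun l => ev (zc P i l) x) hq0 h8
  obtain ⟨l, hl⟩ := h5 π hπ
  obtain ⟨u, hu, v, hv, h11, h12⟩ := (mem_lp_iff hx).1 (h7 l)
  obtain ⟨u, rfl⟩ := exists_zc hu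
  obtain ⟨v, rfl⟩ := exists_zc hv
  have h13 : q l * v = u * q j := by
    apply zc_inj b i
    have h14 : aeval (zc P i) (q j) ≠ 0 := fun h => hj (by rw [h6 j, h, zero_mul])
    rw [map_mul, map_mul, ← h12, h6 l, h6 j, mul_div_mul_right _ _ (div_ne_zero hg hq)]
    field_simp
  rcases hπ.dvd_or_dvd (h13 ▸ h9.mul_left u : π ∣ q l * v) with h | ⟨t, rfl⟩
  · exact hl h
  · exact h11 (by rw [ev_zc hx, map_mul, h10, zero_mul])

/-- a divisor which is trivial on the chart `0` is a multiple of the hyperplane on every chart -/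
theorem exists_exp {a : BD ℂ F} (ha : a ∈ On P) (h0 : ∀ x ∈ pat P 0, At a x 1)
    (l : Fin P.N) : ∃ e : ℤ, ∀ x ∈ pat P l.succ, At a x ((P.y 0 / P.y l.succ) ^ e) := by
  obtain ⟨g, hg⟩ := exists_gen_chart b ha l.succ
  obtain ⟨l0, hl0⟩ := Fin.exists_succAbove_eq (Fin.succ_ne_zero l).symm
  have hc : aeval (zc P l.succ) (X l0 : MvPolynomial _ ℂ) = P.y 0 / P.y l.succ := by
    rw [aeval_X, zc, hl0]
  have hc0 : P.y 0 / P.y l.succ ≠ 0 := div_ne_zero (P.y_ne _) (P.y_ne _)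
  have h1 : ∀ V : RZ ℂ F, (∀ y ∈ P.A l.succ, y ∈ V.1) → (P.y 0 / P.y l.succ)⁻¹ ∈ V.1 →
      V.v g = 1 := by
    intro V hV hi
    obtain ⟨x, hx, h2⟩ := Cns.exists_ov_of_le hV
    obtain ⟨x', hx', h3⟩ := Cns.exists_ov_of_le (P := P) (i := 0) (V := V.1)
      (V.2.adjoin_le (by
        rintro _ ⟨j, rfl⟩
        have h4 := mul_mem (hV _ (div_mem_chart P.y l.succ j)) hi
        rwa [inv_div, div_mul_div_cancel₀ (P.y_ne _)] at h4))
    rw [hg x hx V h2, ← h0 x' hx' V h3, map_one]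
  have h2 : ∀ f : F, (∀ V : RZ ℂ F, (∀ y ∈ P.A l.succ, y ∈ V.1) →
      (P.y 0 / P.y l.succ)⁻¹ ∈ V.1 → V.v f ≤ 1) →
      ∃ (N : ℕ) (p : MvPolynomial _ ℂ), aeval (zc P l.succ) p = (P.y 0 / P.y l.succ) ^ N * f := by
    intro f hf
    obtain ⟨N, hN⟩ := exists_pow_mem (k := ℂ) (S := P.A l.succ) (f := f)
      (div_mem_chart P.y l.succ 0) fun V hV hi => RZ.le_one_iff.1 (hf V hV hi)
    exact ⟨N, exists_zc (mem_A_iff.2 fun x hx => mem_lp_iff'.2 fun V hV =>
      RZ.le_one_iff.2 (hN V fun y hy => hV y (A_le hx hy)))⟩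
  obtain ⟨N, p, hp⟩ := h2 g fun V hV hi => (h1 V hV hi).le
  obtain ⟨M, q, hq⟩ := h2 g⁻¹ fun V hV hi => by rw [map_inv₀, h1 V hV hi, inv_one]
  obtain ⟨x0, hx0, -⟩ := exists_ev_ne (P := P) (i := l.succ) (one_mem _) one_ne_zero
  have hg0 := (hg x0 hx0).ne
  have h3 : X l0 ^ (N + M) = p * q := by
    apply zc_inj b l.succ
    rw [map_mul, map_pow, hc, hp, hq, pow_add]
    field_simp
  obtain ⟨k, -, u, hu⟩ := (dvd_prime_pow X_prime _).1 ⟨q, h3⟩
  refine ⟨(k : ℤ) - N, fun x hx => ?_⟩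
  have h4 := congrArg (aeval (zc P l.succ)) hu
  rw [map_mul, map_pow, hc, hp] at h4
  have h5 := (hg x hx).mul_unit (f := aeval (zc P l.succ) (u : MvPolynomial _ ℂ)) (by
    rw [ev_zc hx]
    exact (u.isUnit.map _).ne_zero)
  convert h5 using 1
  rw [zpow_sub₀ hc0, zpow_natCast, zpow_natCast, ← h4]
  field_simp

theorem rho_proj' {a : BD ℂ F} (ha : a ∈ On P) : ∃ c : ℤ, Lin a (c • oP P) := by
  obtain ⟨g, hg⟩ := exists_gen_chart b ha 0
  obtain ⟨x0, hx0, -⟩ := exists_ev_ne (P := P) (i := 0) (one_mem _) one_ne_zero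
  have hg0 := (hg x0 hx0).ne
  have h0 : ∀ x ∈ pat P 0, At (a - pr ℂ g) x 1 := fun x hx => by
    simpa only [div_self hg0] using (hg x hx).sub (at_pr x hg0)
  choose e he using exists_exp b (sub_mem ha (pr_mem g)) h0
  -- the exponents agree
  have h1 : ∀ l l', e l = e l' := by
    intro l l'
    obtain ⟨x, hx, h2⟩ := exists_pt_zc b l.succ fun m => if l.succ.succAbove m = 0 then 0 else 1
    have h3 : ∀ j, ev (P.y j / P.y l.succ) x = if j = 0 then 0 else 1 := fun j => by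
      refine Fin.succAboveCases l.succ ?_ h2 j
      rw [div_self (P.y_ne _), if_neg (Fin.succ_ne_zero l)]
      exact (lp x).v_one
    have h4 : ev (P.y l'.succ / P.y l.succ) x ≠ 0 := by
      rw [h3, if_neg (Fin.succ_ne_zero l')]
      exact one_ne_zero
    obtain ⟨V, hV, hd⟩ := Br.exists_dom x
    have h5 := (he l x hx V hV).trans (he l' x ((mem_pat_iff hx).2 h4) V hV).symm
    rw [map_zpow₀, map_zpow₀, map_div₀ V.v _ (P.y l'.succ), v_eq_of_ev h4 hV, ← map_div₀] at h5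
    refine (zpow_right_inj₀ (RZ.pos (div_ne_zero (P.y_ne _) (P.y_ne _))) fun h => ?_).1 h5
    exact (hd _ (y_mem hx 0)).1 h (by rw [h3, if_pos rfl])
  obtain ⟨c, hc⟩ : ∃ c : ℤ, ∀ l, e l = c := by
    by_cases h : Nonempty (Fin P.N)
    · exact ⟨e h.some, fun l => h1 _ _⟩
    · exact ⟨0, fun l => absurd ⟨l⟩ h⟩
  have h2 : g * P.y 0 ^ c ≠ 0 := mul_ne_zero hg0 (zpow_ne_zero _ (P.y_ne 0))
  refine ⟨-c, _, h2, ext_at (P := P) fun x => ?_⟩
  obtain ⟨i, hi⟩ := exists_pat x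
  refine ⟨_, ?_, ((at_y hi).zsmul (-c)).add (at_pr x h2)⟩
  have h3 : At (a - pr ℂ g) x ((P.y 0 / P.y i) ^ c) := by
    revert hi
    refine Fin.cases (fun hi => ?_) (fun l hi => hc l ▸ he l x hi) i
    rw [div_self (P.y_ne 0), one_zpow]
    exact h0 x hi
  have h4 := h3.add (at_pr x hg0)
  rw [sub_add_cancel] at h4
  convert h4 using 1
  rw [div_zpow, zpow_neg]
  field_simp

omit b in
/-- the Picard group of projective space is generated by the hyperplane -/
theorem rho_proj {n : ℕ} (b : Basis (Fin n) F Ω[F⁄ℂ]) (hN : P.N = n) {a : BD ℂ F}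
    (ha : a ∈ On P) : ∃ c : ℤ, Lin a (c • oP P) := by
  subst hN
  exact rho_proj' b ha

end Crest.Agent.X262.Fano
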